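import Mathlib

/-!
Harnack type estimates for holomorphic functions with positive real part on the unit disc.
-/

open Complex Metric Set

namespace Vale.Agent.Lib.P142

/-- Upper bound for a holomorphic function with positive real part on the unit disc. -/
theorem harnack_norm_le {p : ℂ → ℂ} (hp : DifferentiableOn ℂ p (ball 0 1))
    (hre : ∀ z ∈ ball (0 : ℂ) 1, 0 < (p z).re) {z : ℂ} (hz : z ∈ ball (0 : ℂ) 1) :
    ‖p z‖ ≤ (2 + 2 * ‖p 0‖) / (1 - ‖z‖) := by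
  have hz1 : ‖z‖ < 1 := by simpa using hz
  have h1 : (0 : ℝ) < 1 - ‖z‖ := by linarith
  have hbc := Complex.borelCaratheodory (f := fun w => -p w) (M := 1) (R := 1) (z := z)
    one_pos hp.neg (fun w hw => by
      have := hre w hw
      simp only [Set.mem_ofPred_eq, neg_re]
      linarith) one_pos hz
  simp only [norm_neg] at hbc
  have hz0 : 0 ≤ ‖z‖ := norm_nonneg z
  have hp0 : 0 ≤ ‖p 0‖ := norm_nonneg _
  calc ‖p z‖ ≤ 2 * 1 * ‖z‖ / (1 - ‖z‖) + ‖p 0‖ * (1 + ‖z‖) / (1 - ‖z‖) := hbc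
    _ = (2 * ‖z‖ + ‖p 0‖ * (1 + ‖z‖)) / (1 - ‖z‖) := by ring
    _ ≤ (2 + 2 * ‖p 0‖) / (1 - ‖z‖) := by
        apply div_le_div_of_nonneg_right _ h1.le
        nlinarith

/-- Lower bound for the real part of a holomorphic function with positive real part on the
unit disc, normalised by `q 0 = 1`. -/
theorem harnack_re_ge {q : ℂ → ℂ} (hq : DifferentiableOn ℂ q (ball 0 1))
    (hre : ∀ z ∈ ball (0 : ℂ) 1, 0 < (q z).re) (h0 : q 0 = 1) {z : ℂ}
    (hz : z ∈ ball (0 : ℂ) 1) :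
    (1 - ‖z‖) / (1 + ‖z‖) ≤ (q z).re := by
  have hz1 : ‖z‖ < 1 := by simpa using hz
  have hne : ∀ w ∈ ball (0 : ℂ) 1, q w + 1 ≠ 0 := by
    intro w hw h
    have h2 := hre w hw
    have h3 : (q w + 1).re = 0 := by rw [h]; simp
    simp at h3
    linarith
  set ω : ℂ → ℂ := fun w => (q w - 1) / (q w + 1) with hω
  have hωd : DifferentiableOn ℂ ω (ball 0 1) :=
    (hq.sub_const 1).div (hq.add_const 1) hne
  have hnorm : ∀ w ∈ ball (0 : ℂ) 1, ‖q w - 1‖ ≤ ‖q w + 1‖ := by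
    intro w hw
    have h2 := hre w hw
    rw [← sq_le_sq₀ (norm_nonneg _) (norm_nonneg _)]
    simp only [Complex.sq_norm, normSq_apply, sub_re, one_re, sub_im, one_im, add_re, add_im]
    nlinarith
  have hmaps : MapsTo ω (ball 0 1) (closedBall 0 1) := by
    intro w hw
    simp only [mem_closedBall, dist_zero_right, hω, norm_div]
    have hpos : 0 < ‖q w + 1‖ := norm_pos_iff.mpr (hne w hw)
    rw [div_le_one hpos]
    exact hnorm w hw
  have hω0 : ω 0 = 0 := by simp [hω, h0]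
  have hsch : ‖ω z‖ ≤ ‖z‖ := Complex.norm_le_norm_of_mapsTo_ball hωd hmaps hω0 hz1
  have hpos : 0 < ‖q z + 1‖ := norm_pos_iff.mpr (hne z hz)
  have hle : ‖q z - 1‖ ≤ ‖z‖ * ‖q z + 1‖ := by
    simp only [hω, norm_div] at hsch
    rwa [div_le_iff₀ hpos] at hsch
  have hsq : ‖q z - 1‖ ^ 2 ≤ (‖z‖ * ‖q z + 1‖) ^ 2 :=
    pow_le_pow_left₀ (norm_nonneg _) hle 2
  rw [mul_pow] at hsq
  have e1 : ‖q z - 1‖ ^ 2 = ((q z).re - 1) ^ 2 + (q z).im ^ 2 := by
    rw [Complex.sq_norm, normSq_apply]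
    simp only [sub_re, one_re, sub_im, one_im]
    ring
  have e2 : ‖q z + 1‖ ^ 2 = ((q z).re + 1) ^ 2 + (q z).im ^ 2 := by
    rw [Complex.sq_norm, normSq_apply]
    simp only [add_re, one_re, add_im, one_im]
    ring
  rw [e1, e2] at hsq
  have hx := hre z hz
  have hr0 : 0 ≤ ‖z‖ := norm_nonneg z
  generalize (q z).re = x at hsq hx ⊢
  generalize (q z).im = y at hsq
  generalize ‖z‖ = r at hsq hr0 hz1 ⊢
  have h5 : (x - 1) ^ 2 ≤ (r * (x + 1)) ^ 2 := by nlinarith [sq_nonneg y, sq_nonneg r]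
  have h6 : |x - 1| ≤ |r * (x + 1)| := sq_le_sq.mp h5
  have h7 : |r * (x + 1)| = r * (x + 1) := abs_of_nonneg (by positivity)
  have h8 : 1 - x ≤ r * (x + 1) := by
    have := neg_abs_le (x - 1)
    linarith [h6, h7]
  rw [div_le_iff₀ (by linarith)]
  nlinarith

end Vale.Agent.Lib.P142
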