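import Mathlib
import Vale.Agent.Lib.P142.Harnack

open Complex Metric Set

namespace Vale.Agent.Lib.P142

theorem smul_mem_ball {z : ℂ} (hz : z ∈ ball (0 : ℂ) 1) {s : ℝ} (hs0 : 0 ≤ s) (hs1 : s ≤ 1) :
    (s : ℂ) * z ∈ ball (0 : ℂ) 1 := by
  have hz1 : ‖z‖ < 1 := by simpa using hz
  simp only [mem_ball, dist_zero_right, norm_mul, Complex.norm_real, Real.norm_eq_abs,
    abs_of_nonneg hs0]
  have := norm_nonneg z
  nlinarith

/-- derivative of `u ↦ ψ (u z)` along a radius -/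
theorem hasDerivAt_radial {ψ : ℂ → ℂ} (hψ : DifferentiableOn ℂ ψ (ball 0 1)) {z : ℂ} {u : ℝ}
    (hu : (u : ℂ) * z ∈ ball (0 : ℂ) 1) :
    HasDerivAt (fun w : ℂ => ψ (w * z)) (deriv ψ ((u : ℂ) * z) * z) (u : ℂ) := by
  have h1 : HasDerivAt ψ (deriv ψ ((u : ℂ) * z)) ((u : ℂ) * z) :=
    (hψ.differentiableAt (isOpen_ball.mem_nhds hu)).hasDerivAt
  have h2 : HasDerivAt (fun w : ℂ => w * z) z (u : ℂ) := by
    simpa using (hasDerivAt_id (u : ℂ)).mul_const z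
  exact h1.comp (u : ℂ) h2

/-- If `g = z exp ψ` is starlike (`Re (1 + z ψ') > 0`), then `Re ψ` cannot increase by more
than `2` when moving towards the origin along a radius. -/
theorem re_radial_le {ψ : ℂ → ℂ} (hψ : DifferentiableOn ℂ ψ (ball 0 1))
    (hstar : ∀ z ∈ ball (0 : ℂ) 1, 0 < (1 + z * deriv ψ z).re) {z : ℂ}
    (hz : z ∈ ball (0 : ℂ) 1) {s : ℝ} (hs0 : 0 ≤ s) (hs1 : s ≤ 1) :
    (ψ ((s : ℂ) * z)).re ≤ (ψ z).re + 2 := by
  have hz1 : ‖z‖ < 1 := by simpa using hz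
  set q : ℂ → ℂ := fun w => 1 + w * deriv ψ w with hq
  have hqd : DifferentiableOn ℂ q (ball 0 1) :=
    (differentiableOn_const 1).add (differentiableOn_id.mul (hψ.deriv isOpen_ball))
  have hq0 : q 0 = 1 := by simp [hq]
  have hlow : ∀ w ∈ ball (0 : ℂ) 1, -2 * ‖w‖ ≤ (w * deriv ψ w).re := by
    intro w hw
    have hw1 : ‖w‖ < 1 := by simpa using hw
    have h := harnack_re_ge hqd hstar hq0 hw
    have h' : (q w).re = 1 + (w * deriv ψ w).re := by simp [hq]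
    rw [h'] at h
    have hw0 : 0 ≤ ‖w‖ := norm_nonneg w
    have h3 : 1 - 2 * ‖w‖ ≤ (1 - ‖w‖) / (1 + ‖w‖) := by
      rw [le_div_iff₀ (by linarith)]
      nlinarith
    linarith
  set κ : ℝ → ℝ := fun u => (ψ ((u : ℂ) * z)).re + 2 * u with hκ
  have hder : ∀ u : ℝ, 0 ≤ u → u ≤ 1 →
      HasDerivAt κ ((deriv ψ ((u : ℂ) * z) * z).re + 2) u := by
    intro u hu0 hu1
    have h1 := (hasDerivAt_radial hψ (smul_mem_ball hz hu0 hu1)).real_of_complex
    have h2 : HasDerivAt (fun u : ℝ => 2 * u) 2 u := by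
      simpa using (hasDerivAt_id u).const_mul (2 : ℝ)
    exact h1.add h2
  have hcont : ContinuousOn κ (Icc 0 1) := fun u hu =>
    (hder u hu.1 hu.2).continuousAt.continuousWithinAt
  have hdiff : DifferentiableOn ℝ κ (interior (Icc 0 1)) := by
    rw [interior_Icc]
    intro u hu
    exact (hder u hu.1.le hu.2.le).differentiableAt.differentiableWithinAt
  have hnonneg : ∀ u ∈ interior (Icc (0 : ℝ) 1), 0 ≤ deriv κ u := by
    rw [interior_Icc]
    intro u hu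
    rw [(hder u hu.1.le hu.2.le).deriv]
    have hmem := smul_mem_ball hz hu.1.le hu.2.le
    have h1 := hlow _ hmem
    have h2 : ((u : ℂ) * z * deriv ψ ((u : ℂ) * z)).re = u * (deriv ψ ((u : ℂ) * z) * z).re := by
      rw [mul_assoc, Complex.re_ofReal_mul, mul_comm z]
    have h3 : ‖(u : ℂ) * z‖ = u * ‖z‖ := by
      simp [abs_of_pos hu.1]
    rw [h2, h3] at h1
    have hz0 : 0 ≤ ‖z‖ := norm_nonneg z
    have hu0 : 0 < u := hu.1
    by_contra hneg
    push Not at hneg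
    nlinarith
  have hmono := monotoneOn_of_deriv_nonneg (convex_Icc (0 : ℝ) 1) hcont hdiff hnonneg
  have h := hmono (⟨hs0, hs1⟩ : s ∈ Icc (0 : ℝ) 1) (⟨zero_le_one, le_refl 1⟩ : (1 : ℝ) ∈ Icc (0 : ℝ) 1) hs1
  simp only [hκ, Complex.ofReal_one, one_mul] at h
  linarith

end Vale.Agent.Lib.P142
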