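import Mathlib
import Vale.Agent.Lib.P142.Radial

open Complex Metric Set MeasureTheory

namespace Vale.Agent.Lib.P142

theorem inv_one_sub_mul_le {s r ε : ℝ} (hs0 : 0 < s) (hs1 : s < 1) (hr0 : 0 ≤ r) (hr1 : r < 1)
    (hε0 : 0 < ε) (hε1 : ε ≤ 1) :
    1 / (1 - s * r) ≤ (1 - r) ^ (-ε) * (1 - s) ^ (ε - 1) := by
  have h1 : 0 < 1 - r := by linarith
  have h2 : 0 < 1 - s := by linarith
  have h3 : 1 - r ≤ 1 - s * r := by nlinarith
  have h4 : 1 - s ≤ 1 - s * r := by nlinarith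
  have h5 : 0 < 1 - s * r := by linarith
  have h6 : (1 - r) ^ ε * (1 - s) ^ (1 - ε) ≤ 1 - s * r := by
    calc (1 - r) ^ ε * (1 - s) ^ (1 - ε)
        ≤ (1 - s * r) ^ ε * (1 - s * r) ^ (1 - ε) := by
          apply mul_le_mul (Real.rpow_le_rpow h1.le h3 hε0.le)
            (Real.rpow_le_rpow h2.le h4 (by linarith)) (Real.rpow_nonneg h2.le _)
            (Real.rpow_nonneg h5.le _)
      _ = (1 - s * r) ^ (ε + (1 - ε)) := (Real.rpow_add h5 _ _).symm
      _ = 1 - s * r := by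
          have : ε + (1 - ε) = 1 := by ring
          rw [this, Real.rpow_one]
  have h7 : 0 < (1 - r) ^ ε * (1 - s) ^ (1 - ε) :=
    mul_pos (Real.rpow_pos_of_pos h1 _) (Real.rpow_pos_of_pos h2 _)
  have h8 : (1 - r) ^ (-ε) * (1 - s) ^ (ε - 1) = 1 / ((1 - r) ^ ε * (1 - s) ^ (1 - ε)) := by
    have e1 : ε - 1 = -(1 - ε) := by ring
    rw [e1, Real.rpow_neg h1.le, Real.rpow_neg h2.le, one_div, mul_inv]
  rw [h8]
  exact one_div_le_one_div_of_le h7 h6

theorem integral_one_sub_rpow {ε : ℝ} (hε0 : 0 < ε) :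
    ∫ s in (0 : ℝ)..1, (1 - s) ^ (ε - 1) = 1 / ε := by
  have h := intervalIntegral.integral_comp_sub_left (a := 0) (b := 1) (fun x : ℝ => x ^ (ε - 1)) 1
  simp only [sub_self, sub_zero] at h
  rw [h, integral_rpow (Or.inl (by linarith))]
  simp [hε0.ne']

theorem intervalIntegrable_one_sub_rpow {ε : ℝ} (hε0 : 0 < ε) :
    IntervalIntegrable (fun s : ℝ => (1 - s) ^ (ε - 1)) volume 0 1 := by
  have h0 : IntervalIntegrable (fun x : ℝ => x ^ (ε - 1)) volume 0 1 :=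
    intervalIntegral.intervalIntegrable_rpow' (by linarith)
  rw [intervalIntegrable_iff_integrableOn_Ioc_of_le zero_le_one] at h0 ⊢
  have hmp : MeasurePreserving (fun x : ℝ => 1 - x) volume volume :=
    Measure.measurePreserving_sub_left volume 1
  have h2 : IntegrableOn (fun x : ℝ => x ^ (ε - 1)) (Ico 0 1) volume := by
    rw [integrableOn_Ico_iff_integrableOn_Ioo]
    rw [integrableOn_Ioc_iff_integrableOn_Ioo] at h0
    exact h0
  have h3 : (fun x : ℝ => 1 - x) ⁻¹' (Ico 0 1) = Ioc 0 1 := by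
    ext x
    simp only [mem_preimage, mem_Ico, mem_Ioc]
    constructor <;> intro h <;> constructor <;> linarith [h.1, h.2]
  have h4 := (hmp.integrableOn_comp_preimage
    (MeasurableEquiv.subLeft (1 : ℝ)).measurableEmbedding (f := fun x : ℝ => x ^ (ε - 1))
    (s := Ico 0 1)).mpr h2
  rw [h3] at h4
  exact h4

theorem continuousOn_radial {g : ℂ → ℂ} (hg : ContinuousOn g (ball 0 1)) {z : ℂ}
    (hz : z ∈ ball (0 : ℂ) 1) : ContinuousOn (fun s : ℝ => g ((s : ℂ) * z)) (Icc 0 1) :=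
  hg.comp (by fun_prop : Continuous fun s : ℝ => (s : ℂ) * z).continuousOn
    (fun _ hs => smul_mem_ball hz hs.1 hs.2)

/-- Growth of `exp (α φ)` relative to `exp (α ψ)` for a Bazilevic pair. -/
theorem exp_re_le {α : ℝ} (hα : 1 ≤ α) {φ ψ : ℂ → ℂ}
    (hφ : DifferentiableOn ℂ φ (ball 0 1)) (hψ : DifferentiableOn ℂ ψ (ball 0 1))
    (hstar : ∀ z ∈ ball (0 : ℂ) 1, 0 < (1 + z * deriv ψ z).re)
    (hbaz : ∀ z ∈ ball (0 : ℂ) 1,
      0 < ((1 + z * deriv φ z) * Complex.exp (α * (φ z - ψ z))).re)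
    {ε : ℝ} (hε0 : 0 < ε) (hε1 : ε ≤ 1) :
    ∃ K : ℝ, 0 < K ∧ ∀ z ∈ ball (0 : ℂ) 1,
      Real.exp (α * (φ z).re) ≤ K * Real.exp (α * (ψ z).re) * (1 - ‖z‖) ^ (-ε) := by
  have hα0 : 0 < α := by linarith
  set p : ℂ → ℂ := fun w => (1 + w * deriv φ w) * Complex.exp (α * (φ w - ψ w)) with hp
  have hpd : DifferentiableOn ℂ p (ball 0 1) :=
    ((differentiableOn_const 1).add (differentiableOn_id.mul (hφ.deriv isOpen_ball))).mul
      (((hφ.sub hψ).const_mul (α : ℂ)).cexp)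
  set Cp : ℝ := 2 + 2 * ‖p 0‖ with hCp
  have hCp0 : 0 < Cp := by positivity
  have hpb : ∀ w ∈ ball (0 : ℂ) 1, ‖p w‖ ≤ Cp / (1 - ‖w‖) :=
    fun w hw => harnack_norm_le hpd hbaz hw
  refine ⟨α * Cp * Real.exp (2 * α) / ε, by positivity, ?_⟩
  intro z hz
  have hz1 : ‖z‖ < 1 := by simpa using hz
  have hz0 : 0 ≤ ‖z‖ := norm_nonneg z
  set F : ℝ → ℂ := fun s =>
    ((α * s ^ (α - 1) : ℝ) : ℂ) * (p ((s : ℂ) * z) * Complex.exp (α * ψ ((s : ℂ) * z))) with hF
  set h : ℝ → ℂ := fun s => ((s ^ α : ℝ) : ℂ) * Complex.exp (α * φ ((s : ℂ) * z)) with hh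
  have hderiv : ∀ s ∈ Ioo (0 : ℝ) 1, HasDerivAt h (F s) s := by
    intro s hs
    have hA : HasDerivAt (fun s : ℝ => ((s ^ α : ℝ) : ℂ)) ((α * s ^ (α - 1) : ℝ) : ℂ) s :=
      (Real.hasDerivAt_rpow_const (Or.inl hs.1.ne')).ofReal_comp
    have hB0 := hasDerivAt_radial hφ (smul_mem_ball hz hs.1.le hs.2.le)
    have hB1 := (hB0.const_mul (α : ℂ)).cexp
    have hB := hB1.comp_ofReal
    have hmul : HasDerivAt h _ s := hA.mul hB
    refine hmul.congr_deriv ?_
    have e1 : Complex.exp (α * (φ ((s : ℂ) * z) - ψ ((s : ℂ) * z))) *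
        Complex.exp (α * ψ ((s : ℂ) * z)) = Complex.exp (α * φ ((s : ℂ) * z)) := by
      rw [← Complex.exp_add]
      congr 1
      ring
    have e2 : s ^ α = s ^ (α - 1) * s := by
      rw [Real.rpow_sub_one hs.1.ne']
      exact (div_mul_cancel₀ _ hs.1.ne').symm
    show _ = ((α * s ^ (α - 1) : ℝ) : ℂ) * (((1 + (s : ℂ) * z * deriv φ ((s : ℂ) * z)) *
      Complex.exp (α * (φ ((s : ℂ) * z) - ψ ((s : ℂ) * z)))) * Complex.exp (α * ψ ((s : ℂ) * z)))
    rw [mul_assoc (1 + (s : ℂ) * z * deriv φ ((s : ℂ) * z)), e1, e2]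
    push_cast
    ring
  have hcont : ContinuousOn h (Icc 0 1) := by
    apply ContinuousOn.mul
    · exact (Complex.continuous_ofReal.comp (Real.continuous_rpow_const hα0.le)).continuousOn
    · exact (continuousOn_radial (hφ.continuousOn.const_mul (α : ℂ)).cexp hz)
  have hFcont : ContinuousOn F (Icc 0 1) := by
    apply ContinuousOn.mul
    · exact (Complex.continuous_ofReal.comp
        (continuous_const.mul (Real.continuous_rpow_const (by linarith)))).continuousOn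
    · exact (continuousOn_radial hpd.continuousOn hz).mul
        (continuousOn_radial (hψ.continuousOn.const_mul (α : ℂ)).cexp hz)
  have hFint : IntervalIntegrable F volume 0 1 := by
    apply ContinuousOn.intervalIntegrable
    rwa [uIcc_of_le zero_le_one]
  have hFTC : ∫ s in (0 : ℝ)..1, F s = h 1 - h 0 :=
    intervalIntegral.integral_eq_sub_of_hasDerivAt_of_le zero_le_one hcont hderiv hFint
  have hh1 : h 1 = Complex.exp (α * φ z) := by simp [hh]
  have hh0 : h 0 = 0 := by simp [hh, Real.zero_rpow hα0.ne']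
  rw [hh1, hh0, sub_zero] at hFTC
  have hnormE : ‖Complex.exp (α * φ z)‖ = Real.exp (α * (φ z).re) := by
    rw [Complex.norm_exp, Complex.re_ofReal_mul]
  set B0 : ℝ := α * Cp * Real.exp (2 * α) * Real.exp (α * (ψ z).re) * (1 - ‖z‖) ^ (-ε) with hB0
  have hB0nn : 0 ≤ B0 := by
    have : 0 ≤ (1 - ‖z‖) ^ (-ε) := Real.rpow_nonneg (by linarith) _
    positivity
  have hbound : ∀ s ∈ Ioo (0 : ℝ) 1, ‖F s‖ ≤ B0 * (1 - s) ^ (ε - 1) := by
    intro s hs
    have hmem := smul_mem_ball hz hs.1.le hs.2.le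
    have hns : ‖(s : ℂ) * z‖ = s * ‖z‖ := by simp [abs_of_pos hs.1]
    have h1 : ‖((α * s ^ (α - 1) : ℝ) : ℂ)‖ ≤ α := by
      rw [Complex.norm_real, Real.norm_eq_abs, abs_of_nonneg
        (mul_nonneg hα0.le (Real.rpow_nonneg hs.1.le _))]
      have := Real.rpow_le_one hs.1.le hs.2.le (by linarith : 0 ≤ α - 1)
      nlinarith
    have h2 : ‖p ((s : ℂ) * z)‖ ≤ Cp * ((1 - ‖z‖) ^ (-ε) * (1 - s) ^ (ε - 1)) := by
      have h21 := hpb _ hmem
      rw [hns] at h21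
      have h22 := inv_one_sub_mul_le hs.1 hs.2 hz0 hz1 hε0 hε1
      calc ‖p ((s : ℂ) * z)‖ ≤ Cp / (1 - s * ‖z‖) := h21
        _ = Cp * (1 / (1 - s * ‖z‖)) := by ring
        _ ≤ Cp * ((1 - ‖z‖) ^ (-ε) * (1 - s) ^ (ε - 1)) :=
            mul_le_mul_of_nonneg_left h22 hCp0.le
    have h3 : ‖Complex.exp (α * ψ ((s : ℂ) * z))‖ ≤
        Real.exp (2 * α) * Real.exp (α * (ψ z).re) := by
      rw [Complex.norm_exp, Complex.re_ofReal_mul, ← Real.exp_add]
      apply Real.exp_le_exp.mpr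
      have := re_radial_le hψ hstar hz hs.1.le hs.2.le
      nlinarith
    have h4 : 0 ≤ (1 - ‖z‖) ^ (-ε) * (1 - s) ^ (ε - 1) :=
      mul_nonneg (Real.rpow_nonneg (by linarith) _) (Real.rpow_nonneg (by linarith [hs.2]) _)
    simp only [hF, norm_mul]
    calc ‖((α * s ^ (α - 1) : ℝ) : ℂ)‖ * (‖p ((s : ℂ) * z)‖ * ‖Complex.exp (α * ψ ((s : ℂ) * z))‖)
        ≤ α * ((Cp * ((1 - ‖z‖) ^ (-ε) * (1 - s) ^ (ε - 1))) *
            (Real.exp (2 * α) * Real.exp (α * (ψ z).re))) := by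
          apply mul_le_mul h1 _ (by positivity) hα0.le
          apply mul_le_mul h2 h3 (norm_nonneg _)
          exact mul_nonneg hCp0.le h4
      _ = B0 * (1 - s) ^ (ε - 1) := by rw [hB0]; ring
  have hnorm_int : IntervalIntegrable (fun s => ‖F s‖) volume 0 1 := hFint.norm
  have hBint : IntervalIntegrable (fun s : ℝ => B0 * (1 - s) ^ (ε - 1)) volume 0 1 :=
    (intervalIntegrable_one_sub_rpow hε0).const_mul B0
  have hle : ‖∫ s in (0 : ℝ)..1, F s‖ ≤ B0 * (1 / ε) := by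
    calc ‖∫ s in (0 : ℝ)..1, F s‖ ≤ ∫ s in (0 : ℝ)..1, ‖F s‖ :=
          intervalIntegral.norm_integral_le_integral_norm zero_le_one
      _ ≤ ∫ s in (0 : ℝ)..1, B0 * (1 - s) ^ (ε - 1) :=
          intervalIntegral.integral_mono_on_of_le_Ioo zero_le_one hnorm_int hBint hbound
      _ = B0 * (1 / ε) := by
          rw [intervalIntegral.integral_const_mul, integral_one_sub_rpow hε0]
  rw [hFTC, hnormE] at hle
  calc Real.exp (α * (φ z).re) ≤ B0 * (1 / ε) := hle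
    _ = α * Cp * Real.exp (2 * α) / ε * Real.exp (α * (ψ z).re) * (1 - ‖z‖) ^ (-ε) := by
        rw [hB0]; ring

end Vale.Agent.Lib.P142
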