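import Mathlib

open Complex Metric Set MeasureTheory
open scoped ENNReal Real

namespace Vale.Agent.Lib.P142

/-- Polar coordinates on the unit disc, as an inequality of lower integrals (no measurability
needed). -/
theorem lintegral_ball_le_polar (F : ℂ → ℝ≥0∞) :
    ∫⁻ z in ball (0 : ℂ) 1, F z ≤
      ∫⁻ r in Ioo (0 : ℝ) 1, ∫⁻ θ in Ioo (-π) π,
        ENNReal.ofReal r * F ((r : ℂ) * (Real.cos θ + Real.sin θ * I)) := by
  rw [← lintegral_indicator measurableSet_ball, ← Complex.lintegral_comp_polarCoord_symm,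
    polarCoord_target, Measure.volume_eq_prod, ← Measure.prod_restrict]
  refine (lintegral_prod_le _).trans ?_
  set g' : ℝ → ℝ≥0∞ := fun r => ∫⁻ θ in Ioo (-π) π,
        ENNReal.ofReal r * F ((r : ℂ) * (Real.cos θ + Real.sin θ * I)) with hg'
  calc ∫⁻ r in Ioi (0 : ℝ), ∫⁻ θ in Ioo (-π) π,
          ENNReal.ofReal (r, θ).1 • (ball (0 : ℂ) 1).indicator F (Complex.polarCoord.symm (r, θ))
      ≤ ∫⁻ r in Ioi (0 : ℝ), (Ioo (0 : ℝ) 1).indicator g' r := by
        apply setLIntegral_mono' measurableSet_Ioi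
        intro r hr
        have hr0 : (0 : ℝ) < r := hr
        by_cases hr1 : r < 1
        · have hmemr : r ∈ Ioo (0 : ℝ) 1 := mem_Ioo.mpr ⟨hr0, hr1⟩
          rw [indicator_of_mem hmemr]
          apply lintegral_mono
          intro θ
          have hmem : Complex.polarCoord.symm (r, θ) ∈ ball (0 : ℂ) 1 := by
            rw [mem_ball_zero_iff, Complex.norm_polarCoord_symm]
            simpa [abs_of_pos hr0] using hr1
          show ENNReal.ofReal r • (ball (0 : ℂ) 1).indicator F (Complex.polarCoord.symm (r, θ)) ≤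
            ENNReal.ofReal r * F ((r : ℂ) * (Real.cos θ + Real.sin θ * I))
          rw [indicator_of_mem hmem, Complex.polarCoord_symm_apply]
          simp
        · have hmemr : r ∉ Ioo (0 : ℝ) 1 := fun h => hr1 (mem_Ioo.mp h).2
          rw [indicator_of_notMem hmemr]
          have hzero : ∀ θ : ℝ, ENNReal.ofReal (r, θ).1 •
              (ball (0 : ℂ) 1).indicator F (Complex.polarCoord.symm (r, θ)) = 0 := by
            intro θ
            have hmem : Complex.polarCoord.symm (r, θ) ∉ ball (0 : ℂ) 1 := by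
              rw [mem_ball_zero_iff, Complex.norm_polarCoord_symm]
              simpa [abs_of_pos hr0] using hr1
            rw [indicator_of_notMem hmem]
            simp
          simp only [hzero, lintegral_zero, le_refl]
    _ ≤ ∫⁻ r, (Ioo (0 : ℝ) 1).indicator g' r := setLIntegral_le_lintegral _ _
    _ = ∫⁻ r in Ioo (0 : ℝ) 1, g' r := lintegral_indicator measurableSet_Ioo _

/-- Mean value property on circles for the real part of a holomorphic function with positive
real part, in the form needed for polar coordinates. -/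
theorem lintegral_circle_re {P : ℂ → ℂ} (hP : DifferentiableOn ℂ P (ball 0 1))
    (hre : ∀ z ∈ ball (0 : ℂ) 1, 0 < (P z).re) {r : ℝ} (hr : r ∈ Ioo (0 : ℝ) 1) :
    ∫⁻ θ in Ioo (-π) π, ENNReal.ofReal ((P ((r : ℂ) * (Real.cos θ + Real.sin θ * I))).re) =
      ENNReal.ofReal (2 * π * (P 0).re) := by
  have hr0 : 0 < r := hr.1
  have hr1 : r < 1 := hr.2
  have hcm : ∀ θ : ℝ, (r : ℂ) * (Real.cos θ + Real.sin θ * I) = circleMap 0 r θ := by
    intro θ
    simp [circleMap, Complex.exp_mul_I]
  have hmem : ∀ θ : ℝ, circleMap 0 r θ ∈ ball (0 : ℂ) 1 := by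
    intro θ
    rw [mem_ball_zero_iff, norm_circleMap_zero, abs_of_pos hr0]
    exact hr1
  have hcont : Continuous (fun θ : ℝ => P (circleMap 0 r θ)) :=
    hP.continuousOn.comp_continuous (continuous_circleMap 0 r) hmem
  have hcontre : Continuous (fun θ : ℝ => (P (circleMap 0 r θ)).re) :=
    Complex.continuous_re.comp hcont
  have hnn : ∀ θ : ℝ, 0 ≤ (P (circleMap 0 r θ)).re := fun θ => (hre _ (hmem θ)).le
  have hdc : DiffContOnCl ℂ P (ball 0 |r|) := by
    apply hP.diffContOnCl_ball
    intro w hw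
    rw [mem_closedBall, dist_zero_right, abs_of_pos hr0] at hw
    rw [mem_ball_zero_iff]
    linarith
  have hav := hdc.circleAverage
  rw [Real.circleAverage_def] at hav
  have hint : ∫ θ in (0 : ℝ)..2 * π, P (circleMap 0 r θ) = (2 * π) • P 0 := by
    rw [← hav, smul_smul, mul_inv_cancel₀ (by positivity), one_smul]
  have hre_int : ∫ θ in (0 : ℝ)..2 * π, (P (circleMap 0 r θ)).re = 2 * π * (P 0).re := by
    have h1 := Complex.reCLM.intervalIntegral_comp_comm
      (hcont.intervalIntegrable (μ := volume) 0 (2 * π))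
    simp only [Complex.reCLM_apply] at h1
    rw [h1, hint]
    simp
  have hper : Function.Periodic (fun θ : ℝ => (P (circleMap 0 r θ)).re) (2 * π) := by
    intro θ
    simp only
    rw [periodic_circleMap 0 r θ]
  have hshift : ∫ θ in (-π)..π, (P (circleMap 0 r θ)).re = 2 * π * (P 0).re := by
    have h1 := hper.intervalIntegral_add_eq (-π) 0
    have e1 : -π + 2 * π = π := by ring
    rw [e1, zero_add] at h1
    rw [h1, hre_int]
  have hIoo : ∫ θ in Ioo (-π) π, (P (circleMap 0 r θ)).re = 2 * π * (P 0).re := by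
    rw [← integral_Ioc_eq_integral_Ioo, ← intervalIntegral.integral_of_le (by linarith [Real.pi_pos])]
    exact hshift
  simp only [hcm]
  rw [← ofReal_integral_eq_lintegral_ofReal, hIoo]
  · exact (hcontre.integrableOn_Icc (a := -π) (b := π)).mono_set Ioo_subset_Icc_self
  · exact Filter.Eventually.of_forall hnn

/-- Weighted area integrability of the real part of a holomorphic function with positive real
part on the unit disc. -/
theorem lintegral_weight_re_lt_top {P : ℂ → ℂ} (hP : DifferentiableOn ℂ P (ball 0 1))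
    (hre : ∀ z ∈ ball (0 : ℂ) 1, 0 < (P z).re) {η C : ℝ} (hη : η < 1) (hC : 0 ≤ C) :
    ∫⁻ z in ball (0 : ℂ) 1, ENNReal.ofReal (C * (1 - ‖z‖) ^ (-η) * (P z).re) < ⊤ := by
  refine (lintegral_ball_le_polar _).trans_lt ?_
  have hstep : ∀ r ∈ Ioo (0 : ℝ) 1, ∫⁻ θ in Ioo (-π) π, ENNReal.ofReal r *
      ENNReal.ofReal (C * (1 - ‖(r : ℂ) * (Real.cos θ + Real.sin θ * I)‖) ^ (-η) *
        (P ((r : ℂ) * (Real.cos θ + Real.sin θ * I))).re) ≤
      ENNReal.ofReal (C * (1 - r) ^ (-η)) * ENNReal.ofReal (2 * π * (P 0).re) := by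
    intro r hr
    have hr0 : 0 < r := hr.1
    have hr1 : r < 1 := hr.2
    have hnorm : ∀ θ : ℝ, ‖(r : ℂ) * (Real.cos θ + Real.sin θ * I)‖ = r := by
      intro θ
      rw [← Complex.polarCoord_symm_apply (r, θ), Complex.norm_polarCoord_symm]
      exact abs_of_pos hr0
    have hw : 0 ≤ C * (1 - r) ^ (-η) := mul_nonneg hC (Real.rpow_nonneg (by linarith) _)
    have heq : ∀ θ : ℝ, ENNReal.ofReal r *
        ENNReal.ofReal (C * (1 - ‖(r : ℂ) * (Real.cos θ + Real.sin θ * I)‖) ^ (-η) *
          (P ((r : ℂ) * (Real.cos θ + Real.sin θ * I))).re) =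
        (ENNReal.ofReal r * ENNReal.ofReal (C * (1 - r) ^ (-η))) *
          ENNReal.ofReal ((P ((r : ℂ) * (Real.cos θ + Real.sin θ * I))).re) := by
      intro θ
      rw [hnorm θ, ENNReal.ofReal_mul hw, mul_assoc]
    simp only [heq]
    rw [lintegral_const_mul' _ _ (ENNReal.mul_ne_top ENNReal.ofReal_ne_top ENNReal.ofReal_ne_top),
      lintegral_circle_re hP hre hr]
    apply mul_le_mul_left
    calc ENNReal.ofReal r * ENNReal.ofReal (C * (1 - r) ^ (-η))
        ≤ 1 * ENNReal.ofReal (C * (1 - r) ^ (-η)) := by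
          apply mul_le_mul_left
          rw [← ENNReal.ofReal_one]
          exact ENNReal.ofReal_le_ofReal hr1.le
      _ = ENNReal.ofReal (C * (1 - r) ^ (-η)) := one_mul _
  refine (setLIntegral_mono' measurableSet_Ioo hstep).trans_lt ?_
  rw [lintegral_mul_const' _ _ ENNReal.ofReal_ne_top]
  apply ENNReal.mul_lt_top _ ENNReal.ofReal_lt_top
  apply IntegrableOn.setLIntegral_lt_top
  have h1 : IntervalIntegrable (fun s : ℝ => (1 - s) ^ ((1 - η) - 1)) volume 0 1 := by
    have h0 : IntervalIntegrable (fun x : ℝ => x ^ ((1 - η) - 1)) volume 0 1 :=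
      intervalIntegral.intervalIntegrable_rpow' (by linarith)
    rw [intervalIntegrable_iff_integrableOn_Ioc_of_le zero_le_one] at h0 ⊢
    have hmp : MeasurePreserving (fun x : ℝ => 1 - x) volume volume :=
      Measure.measurePreserving_sub_left volume 1
    have h2 : IntegrableOn (fun x : ℝ => x ^ ((1 - η) - 1)) (Ico 0 1) volume := by
      rw [integrableOn_Ico_iff_integrableOn_Ioo]
      rw [integrableOn_Ioc_iff_integrableOn_Ioo] at h0
      exact h0
    have h3 : (fun x : ℝ => 1 - x) ⁻¹' (Ico 0 1) = Ioc 0 1 := by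
      ext x
      simp only [mem_preimage, mem_Ico, mem_Ioc]
      constructor <;> intro h <;> constructor <;> linarith [h.1, h.2]
    have h4 := (hmp.integrableOn_comp_preimage
      (MeasurableEquiv.subLeft (1 : ℝ)).measurableEmbedding (f := fun x : ℝ => x ^ ((1 - η) - 1))
      (s := Ico 0 1)).mpr h2
    rw [h3] at h4
    exact h4
  rw [intervalIntegrable_iff_integrableOn_Ioo_of_le zero_le_one] at h1
  have e : (fun s : ℝ => C * (1 - s) ^ (-η)) = fun s : ℝ => C * (1 - s) ^ ((1 - η) - 1) := by
    funext s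
    congr 2
    ring
  rw [e]
  exact h1.const_mul C

end Vale.Agent.Lib.P142
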