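import Mathlib
import Vale.Agent.Lib.P142.Growth
import Vale.Agent.Lib.P142.Polar

open Complex Metric Set MeasureTheory
open scoped ENNReal Real

namespace Vale.Agent.Lib.P142

theorem norm_rpow_mul_cos_le {w : ℂ} (hw : 0 < w.re) {a : ℝ} (ha0 : 0 ≤ a) (ha1 : a < 1) :
    ‖w‖ ^ a * Real.cos (a * (π / 2)) ≤ (Complex.exp (a * Complex.log w)).re := by
  have hw0 : w ≠ 0 := by
    rintro rfl
    simp at hw
  have hnorm : 0 < ‖w‖ := norm_pos_iff.mpr hw0
  rw [Complex.exp_re]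
  have e1 : ((a : ℂ) * Complex.log w).re = a * Real.log ‖w‖ := by
    rw [Complex.re_ofReal_mul, Complex.log_re]
  have e2 : ((a : ℂ) * Complex.log w).im = a * w.arg := by
    rw [Complex.im_ofReal_mul, Complex.log_im]
  rw [e1, e2]
  have e3 : Real.exp (a * Real.log ‖w‖) = ‖w‖ ^ a := by
    rw [Real.rpow_def_of_pos hnorm, mul_comm]
  rw [e3]
  apply mul_le_mul_of_nonneg_left _ (Real.rpow_nonneg hnorm.le _)
  have harg : |w.arg| < π / 2 := Complex.abs_arg_lt_pi_div_two_iff.mpr (Or.inl hw)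
  rw [← Real.cos_abs (a * w.arg)]
  apply Real.cos_le_cos_of_nonneg_of_le_pi (abs_nonneg _)
  · nlinarith [Real.pi_pos]
  · rw [abs_mul, abs_of_nonneg ha0]
    exact mul_le_mul_of_nonneg_left harg.le ha0

/-- A general integrability criterion: if `1 / ‖F‖ ≤ K (1 - ‖z‖)^(-ε) ‖𝔭 z‖` on the unit disc
with `𝔭` holomorphic of positive real part, then `‖F‖ ^ t` is integrable over the disc for
`t = -q`, provided `ε q + q / 2 < 1`. -/
theorem integrableOn_rpow_of_bound {F 𝔭 : ℂ → ℂ} (hFc : ContinuousOn F (ball 0 1))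
    (hF0 : ∀ z ∈ ball (0 : ℂ) 1, F z ≠ 0)
    (h𝔭 : DifferentiableOn ℂ 𝔭 (ball 0 1)) (hre : ∀ z ∈ ball (0 : ℂ) 1, 0 < (𝔭 z).re)
    {K ε q : ℝ} (hK : 0 < K) (hq0 : 0 ≤ q) (hq2 : q < 2)
    (hη : ε * q + q / 2 < 1)
    (hbound : ∀ z ∈ ball (0 : ℂ) 1, ‖F z‖⁻¹ ≤ K * (1 - ‖z‖) ^ (-ε) * ‖𝔭 z‖) :
    IntegrableOn (fun z => ‖F z‖ ^ (-q)) (ball (0 : ℂ) 1) volume := by
  set a : ℝ := q / 2 with ha
  have ha0 : 0 ≤ a := by positivity
  have ha1 : a < 1 := by rw [ha]; linarith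
  set C₂ : ℝ := 2 + 2 * ‖𝔭 0‖ with hC₂
  have hC₂0 : 0 < C₂ := by positivity
  have hcos : 0 < Real.cos (a * (π / 2)) := by
    apply Real.cos_pos_of_mem_Ioo
    constructor
    · have := Real.pi_pos
      nlinarith
    · have := Real.pi_pos
      nlinarith
  set P : ℂ → ℂ := fun z => Complex.exp (a * Complex.log (𝔭 z)) with hP
  have hPd : DifferentiableOn ℂ P (ball 0 1) := by
    apply DifferentiableOn.cexp
    apply DifferentiableOn.const_mul
    exact h𝔭.clog (fun z hz => Complex.mem_slitPlane_iff.mpr (Or.inl (hre z hz)))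
  have hPlow : ∀ z ∈ ball (0 : ℂ) 1, ‖𝔭 z‖ ^ a * Real.cos (a * (π / 2)) ≤ (P z).re :=
    fun z hz => norm_rpow_mul_cos_le (hre z hz) ha0 ha1
  have hPre : ∀ z ∈ ball (0 : ℂ) 1, 0 < (P z).re := by
    intro z hz
    have h𝔭0 : 𝔭 z ≠ 0 := by
      intro h
      have := hre z hz
      rw [h] at this
      simp at this
    have : 0 < ‖𝔭 z‖ ^ a * Real.cos (a * (π / 2)) :=
      mul_pos (Real.rpow_pos_of_pos (norm_pos_iff.mpr h𝔭0) _) hcos
    linarith [hPlow z hz]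
  set C₃ : ℝ := K ^ q * C₂ ^ a / Real.cos (a * (π / 2)) with hC₃
  have hC₃0 : 0 ≤ C₃ := by
    have h1 : 0 ≤ K ^ q := Real.rpow_nonneg hK.le _
    have h2 : 0 ≤ C₂ ^ a := Real.rpow_nonneg hC₂0.le _
    positivity
  have hpt : ∀ z ∈ ball (0 : ℂ) 1,
      ‖F z‖ ^ (-q) ≤ C₃ * (1 - ‖z‖) ^ (-(ε * q + q / 2)) * (P z).re := by
    intro z hz
    have hz1 : ‖z‖ < 1 := by simpa using hz
    have h1r : 0 < 1 - ‖z‖ := by linarith
    have hFn : 0 < ‖F z‖ := norm_pos_iff.mpr (hF0 z hz)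
    have h𝔭n : 0 ≤ ‖𝔭 z‖ := norm_nonneg _
    have hX : 0 ≤ (1 - ‖z‖) ^ (-ε) := Real.rpow_nonneg h1r.le _
    have e0 : ‖F z‖ ^ (-q) = (‖F z‖⁻¹) ^ q := by
      rw [Real.rpow_neg hFn.le, Real.inv_rpow hFn.le]
    have h1 : (‖F z‖⁻¹) ^ q ≤ (K * (1 - ‖z‖) ^ (-ε) * ‖𝔭 z‖) ^ q :=
      Real.rpow_le_rpow (inv_nonneg.mpr hFn.le) (hbound z hz) hq0
    have e1 : (K * (1 - ‖z‖) ^ (-ε) * ‖𝔭 z‖) ^ q =
        K ^ q * (1 - ‖z‖) ^ (-(ε * q)) * ‖𝔭 z‖ ^ q := by
      rw [Real.mul_rpow (mul_nonneg hK.le hX) h𝔭n, Real.mul_rpow hK.le hX,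
        ← Real.rpow_mul h1r.le]
      congr 3
      ring
    have e2 : ‖𝔭 z‖ ^ q = ‖𝔭 z‖ ^ a * ‖𝔭 z‖ ^ a := by
      rcases eq_or_lt_of_le h𝔭n with h0 | hpos
      · exfalso
        have := hre z hz
        have h𝔭z : 𝔭 z = 0 := norm_eq_zero.mp h0.symm
        rw [h𝔭z] at this
        simp at this
      · rw [← Real.rpow_add hpos]
        congr 1
        rw [ha]
        ring
    have h2 : ‖𝔭 z‖ ^ a ≤ C₂ ^ a * (1 - ‖z‖) ^ (-(q / 2)) := by
      have h21 : ‖𝔭 z‖ ≤ C₂ / (1 - ‖z‖) := harnack_norm_le h𝔭 hre hz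
      have h22 := Real.rpow_le_rpow h𝔭n h21 ha0
      rw [Real.div_rpow hC₂0.le h1r.le, div_eq_mul_inv, ← Real.rpow_neg h1r.le] at h22
      exact h22
    have h3 : ‖𝔭 z‖ ^ a ≤ (P z).re / Real.cos (a * (π / 2)) := by
      rw [le_div_iff₀ hcos]
      exact hPlow z hz
    have hPz := (hPre z hz).le
    have hKq : 0 ≤ K ^ q := Real.rpow_nonneg hK.le _
    have hY : 0 ≤ (1 - ‖z‖) ^ (-(ε * q)) := Real.rpow_nonneg h1r.le _
    have hZ : 0 ≤ (1 - ‖z‖) ^ (-(q / 2)) := Real.rpow_nonneg h1r.le _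
    have hC₂a : 0 ≤ C₂ ^ a := Real.rpow_nonneg hC₂0.le _
    have e3 : (1 - ‖z‖) ^ (-(ε * q + q / 2)) =
        (1 - ‖z‖) ^ (-(ε * q)) * (1 - ‖z‖) ^ (-(q / 2)) := by
      rw [← Real.rpow_add h1r]
      congr 1
      ring
    calc ‖F z‖ ^ (-q) = (‖F z‖⁻¹) ^ q := e0
      _ ≤ K ^ q * (1 - ‖z‖) ^ (-(ε * q)) * ‖𝔭 z‖ ^ q := by rw [← e1]; exact h1
      _ = K ^ q * (1 - ‖z‖) ^ (-(ε * q)) * (‖𝔭 z‖ ^ a * ‖𝔭 z‖ ^ a) := by rw [e2]
      _ ≤ K ^ q * (1 - ‖z‖) ^ (-(ε * q)) *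
          ((P z).re / Real.cos (a * (π / 2)) * (C₂ ^ a * (1 - ‖z‖) ^ (-(q / 2)))) := by
          apply mul_le_mul_of_nonneg_left _ (mul_nonneg hKq hY)
          exact mul_le_mul h3 h2 (Real.rpow_nonneg h𝔭n _) (div_nonneg hPz hcos.le)
      _ = C₃ * (1 - ‖z‖) ^ (-(ε * q + q / 2)) * (P z).re := by
          rw [e3, hC₃]
          field_simp
  refine ⟨?_, ?_⟩
  · apply ContinuousOn.aestronglyMeasurable _ measurableSet_ball
    exact (hFc.norm).rpow_const (fun z hz => Or.inl (norm_ne_zero_iff.mpr (hF0 z hz)))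
  · rw [hasFiniteIntegral_iff_ofReal
      (Filter.Eventually.of_forall (fun z => Real.rpow_nonneg (norm_nonneg _) _))]
    refine (setLIntegral_mono' measurableSet_ball
      (fun z hz => ENNReal.ofReal_le_ofReal (hpt z hz))).trans_lt ?_
    exact lintegral_weight_re_lt_top hPd hPre hη hC₃0

/-- Integrability of negative powers of `‖f'‖` over the unit disc for Bazilevic functions
`f = z exp φ` of type `α ≥ 1` (with respect to the starlike function `z exp ψ`). -/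
theorem bazilevic_integrable {α : ℝ} (hα : 1 ≤ α) {φ ψ : ℂ → ℂ}
    (hφ : DifferentiableOn ℂ φ (ball 0 1)) (hψ : DifferentiableOn ℂ ψ (ball 0 1))
    (hstar : ∀ z ∈ ball (0 : ℂ) 1, 0 < (1 + z * deriv ψ z).re)
    (hbaz : ∀ z ∈ ball (0 : ℂ) 1,
      0 < ((1 + z * deriv φ z) * Complex.exp (α * (φ z - ψ z))).re)
    {t : ℝ} (ht : -2 < t) (ht0 : t ≤ 0) :
    IntegrableOn (fun z => ‖deriv (fun w => w * Complex.exp (φ w)) z‖ ^ t)
      (ball (0 : ℂ) 1) volume := by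
  have hα0 : 0 < α := by linarith
  set f : ℂ → ℂ := fun w => w * Complex.exp (φ w) with hf
  set p : ℂ → ℂ := fun w => (1 + w * deriv φ w) * Complex.exp (α * (φ w - ψ w)) with hp
  have hpd : DifferentiableOn ℂ p (ball 0 1) :=
    ((differentiableOn_const 1).add (differentiableOn_id.mul (hφ.deriv isOpen_ball))).mul
      (((hφ.sub hψ).const_mul (α : ℂ)).cexp)
  have hpne : ∀ z ∈ ball (0 : ℂ) 1, p z ≠ 0 := by
    intro z hz h
    have := hbaz z hz
    rw [show (1 + z * deriv φ z) * Complex.exp (α * (φ z - ψ z)) = p z from rfl, h] at this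
    simp at this
  have hfd : DifferentiableOn ℂ f (ball 0 1) := differentiableOn_id.mul hφ.cexp
  have hderiv : ∀ z ∈ ball (0 : ℂ) 1,
      deriv f z = Complex.exp (φ z) * (1 + z * deriv φ z) := by
    intro z hz
    have h1 : HasDerivAt φ (deriv φ z) z :=
      (hφ.differentiableAt (isOpen_ball.mem_nhds hz)).hasDerivAt
    have h2 := (hasDerivAt_id z).mul h1.cexp
    have h3 : HasDerivAt f (1 * Complex.exp (φ z) + z * (Complex.exp (φ z) * deriv φ z)) z := h2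
    rw [h3.deriv]
    ring
  set q : ℝ := -t with hq
  have hq0 : 0 ≤ q := by rw [hq]; linarith
  have hq2 : q < 2 := by rw [hq]; linarith
  set ε : ℝ := (1 - q / 2) / 4 with hε
  have hε0 : 0 < ε := by rw [hε]; linarith
  have hε1 : ε ≤ 1 := by rw [hε]; linarith
  have hη : ε * q + q / 2 < 1 := by rw [hε]; nlinarith
  obtain ⟨K, hK, hKb⟩ := exp_re_le hα hφ hψ hstar hbaz hε0 hε1
  set K₁ : ℝ := max 1 K * Real.exp (2 - (ψ 0).re) with hK₁
  have hK₁0 : 0 < K₁ := by positivity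
  set 𝔭 : ℂ → ℂ := fun z => (p z)⁻¹ with h𝔭
  have h𝔭d : DifferentiableOn ℂ 𝔭 (ball 0 1) := hpd.inv hpne
  have h𝔭re : ∀ z ∈ ball (0 : ℂ) 1, 0 < (𝔭 z).re := by
    intro z hz
    simp only [h𝔭, Complex.inv_re]
    exact div_pos (hbaz z hz) (Complex.normSq_pos.mpr (hpne z hz))
  have hne1 : ∀ z ∈ ball (0 : ℂ) 1, 1 + z * deriv φ z ≠ 0 := by
    intro z hz h
    apply hpne z hz
    simp [hp, h]
  have hF0 : ∀ z ∈ ball (0 : ℂ) 1, deriv f z ≠ 0 := by
    intro z hz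
    rw [hderiv z hz]
    exact mul_ne_zero (Complex.exp_ne_zero _) (hne1 z hz)
  have hbound : ∀ z ∈ ball (0 : ℂ) 1,
      ‖deriv f z‖⁻¹ ≤ K₁ * (1 - ‖z‖) ^ (-ε) * ‖𝔭 z‖ := by
    intro z hz
    have hz1 : ‖z‖ < 1 := by simpa using hz
    have h1r : 0 < 1 - ‖z‖ := by linarith
    set X : ℝ := (1 - ‖z‖) ^ (-ε) with hX
    have hX1 : 1 ≤ X :=
      Real.one_le_rpow_of_pos_of_le_one_of_nonpos h1r (by linarith [norm_nonneg z]) (by linarith)
    set A : ℝ := α * (φ z).re - α * (ψ z).re with hA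
    have hAle : Real.exp A ≤ K * X := by
      rw [hA, Real.exp_sub, div_le_iff₀ (Real.exp_pos _)]
      have := hKb z hz
      linarith
    set c : ℝ := (α - 1) / α with hc
    have hc0 : 0 ≤ c := div_nonneg (by linarith) hα0.le
    have hc1 : c ≤ 1 := by
      rw [hc, div_le_one hα0]
      linarith
    have hKX : 0 ≤ K * X := by positivity
    have hB : Real.exp (c * A) ≤ max 1 K * X := by
      have e1 : Real.exp (c * A) = Real.exp A ^ c := by rw [mul_comm, Real.exp_mul]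
      rw [e1]
      have h1 : Real.exp A ^ c ≤ (K * X) ^ c := Real.rpow_le_rpow (Real.exp_nonneg _) hAle hc0
      have h2 : (K * X) ^ c ≤ max 1 (K * X) := by
        rcases le_total (K * X) 1 with h | h
        · exact (Real.rpow_le_one hKX h hc0).trans (le_max_left _ _)
        · calc (K * X) ^ c ≤ (K * X) ^ (1 : ℝ) := Real.rpow_le_rpow_of_exponent_le h hc1
            _ = K * X := Real.rpow_one _
            _ ≤ max 1 (K * X) := le_max_right _ _
      have h3 : max 1 (K * X) ≤ max 1 K * X := by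
        apply max_le
        · calc (1 : ℝ) = 1 * 1 := (one_mul 1).symm
            _ ≤ max 1 K * X := mul_le_mul (le_max_left _ _) hX1 zero_le_one (by positivity)
        · exact mul_le_mul_of_nonneg_right (le_max_right _ _) (by linarith)
      exact h1.trans (h2.trans h3)
    have hC : Real.exp (-(ψ z).re) ≤ Real.exp (2 - (ψ 0).re) := by
      apply Real.exp_le_exp.mpr
      have := re_radial_le hψ hstar hz (le_refl (0 : ℝ)) zero_le_one
      simp only [Complex.ofReal_zero, zero_mul] at this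
      linarith
    have hcomb : Real.exp ((α - 1) * (φ z).re - α * (ψ z).re) ≤ K₁ * X := by
      have e : (α - 1) * (φ z).re - α * (ψ z).re = c * A + -(ψ z).re := by
        rw [hc, hA]
        field_simp
        ring
      rw [e, Real.exp_add, hK₁]
      calc Real.exp (c * A) * Real.exp (-(ψ z).re)
          ≤ (max 1 K * X) * Real.exp (2 - (ψ 0).re) :=
            mul_le_mul hB hC (Real.exp_nonneg _) (by positivity)
        _ = max 1 K * Real.exp (2 - (ψ 0).re) * X := by ring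
    have hnp : ‖p z‖ = ‖1 + z * deriv φ z‖ * Real.exp (α * (φ z).re - α * (ψ z).re) := by
      simp only [hp, norm_mul, Complex.norm_exp]
      congr 2
      rw [Complex.re_ofReal_mul]
      simp only [Complex.sub_re]
      ring
    have hnf : ‖deriv f z‖ = Real.exp (φ z).re * ‖1 + z * deriv φ z‖ := by
      rw [hderiv z hz, norm_mul, Complex.norm_exp]
    have hn1 : 0 < ‖1 + z * deriv φ z‖ := norm_pos_iff.mpr (hne1 z hz)
    have heq : ‖deriv f z‖⁻¹ =
        Real.exp ((α - 1) * (φ z).re - α * (ψ z).re) * ‖𝔭 z‖ := by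
      simp only [h𝔭, norm_inv]
      rw [hnf, hnp]
      have e : (α - 1) * (φ z).re - α * (ψ z).re =
          (α * (φ z).re - α * (ψ z).re) + -(φ z).re := by ring
      rw [e, Real.exp_add, Real.exp_neg]
      have h1 := Real.exp_pos (φ z).re
      have h2 := Real.exp_pos (α * (φ z).re - α * (ψ z).re)
      field_simp
    rw [heq]
    exact mul_le_mul_of_nonneg_right hcomb (norm_nonneg _)
  have hmain := integrableOn_rpow_of_bound (hfd.deriv isOpen_ball).continuousOn hF0 h𝔭d h𝔭re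
    hK₁0 hq0 hq2 hη hbound
  have e : -q = t := by rw [hq]; ring
  rw [e] at hmain
  exact hmain

end Vale.Agent.Lib.P142
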