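import Mathlib
import Vale.Agent.Lib.P142.Main

open Complex Metric Set MeasureTheory
open scoped ENNReal Real

namespace Vale.Agent.Lib.P142

theorem rpow_sub_one_le_two {s a : ℝ} (hs : 1 / 2 ≤ s) (hs1 : s ≤ 1) (ha : 0 < a) :
    s ^ (a - 1) ≤ 2 := by
  have hs0 : 0 < s := by linarith
  rcases le_total 1 a with h | h
  · have := Real.rpow_le_one hs0.le hs1 (by linarith : 0 ≤ a - 1)
    linarith
  · have e : s ^ (a - 1) = (s ^ (1 - a))⁻¹ := by
      rw [← Real.rpow_neg hs0.le]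
      congr 1
      ring
    rw [e]
    have h1 : (1 / 2 : ℝ) ^ (1 - a) ≤ s ^ (1 - a) :=
      Real.rpow_le_rpow (by norm_num) hs (by linarith)
    have h2 : (1 / 2 : ℝ) ^ (1 : ℝ) ≤ (1 / 2 : ℝ) ^ (1 - a) :=
      Real.rpow_le_rpow_of_exponent_ge (by norm_num) (by norm_num) (by linarith)
    rw [Real.rpow_one] at h2
    have h3 : (1 / 2 : ℝ) ≤ s ^ (1 - a) := h2.trans h1
    have h4 : (s ^ (1 - a))⁻¹ ≤ (1 / 2 : ℝ)⁻¹ := inv_anti₀ (by norm_num) h3
    norm_num at h4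
    exact h4

theorem integral_half_one_sub_rpow_le {ε : ℝ} (hε0 : 0 < ε) :
    ∫ s in (1 / 2 : ℝ)..1, (1 - s) ^ (ε - 1) ≤ 1 / ε := by
  have h := intervalIntegral.integral_comp_sub_left (a := 1 / 2) (b := 1)
    (fun x : ℝ => x ^ (ε - 1)) 1
  simp only [sub_self] at h
  rw [h, integral_rpow (Or.inl (by linarith))]
  have e1 : ε - 1 + 1 = ε := by ring
  rw [e1, Real.zero_rpow hε0.ne', sub_zero]
  apply div_le_div_of_nonneg_right _ hε0.le
  exact Real.rpow_le_one (by norm_num) (by norm_num) hε0.le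

/-- Growth of `exp (γ φ)` relative to `exp (α ψ)` for a general Bazilevic pair,
`γ = α + i β`, `α > 0`. -/
theorem exp_re_le_general {α β : ℝ} (hα : 0 < α) {φ ψ : ℂ → ℂ}
    (hφ : DifferentiableOn ℂ φ (ball 0 1)) (hψ : DifferentiableOn ℂ ψ (ball 0 1))
    (hstar : ∀ z ∈ ball (0 : ℂ) 1, 0 < (1 + z * deriv ψ z).re)
    (hbaz : ∀ z ∈ ball (0 : ℂ) 1,
      0 < ((1 + z * deriv φ z) * Complex.exp (((α : ℂ) + β * I) * φ z - α * ψ z)).re)
    {ε : ℝ} (hε0 : 0 < ε) (hε1 : ε ≤ 1) :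
    ∃ K : ℝ, 0 < K ∧ ∀ z ∈ ball (0 : ℂ) 1,
      Real.exp ((((α : ℂ) + β * I) * φ z).re) ≤
        K * Real.exp (α * (ψ z).re) * (1 - ‖z‖) ^ (-ε) := by
  set γ : ℂ := (α : ℂ) + β * I with hγ
  have hγre : γ.re = α := by simp [hγ]
  have hγ0 : γ ≠ 0 := by
    intro h
    rw [h] at hγre
    simp at hγre
    linarith
  set p : ℂ → ℂ := fun w => (1 + w * deriv φ w) * Complex.exp (γ * φ w - α * ψ w) with hp
  have hpd : DifferentiableOn ℂ p (ball 0 1) :=
    ((differentiableOn_const 1).add (differentiableOn_id.mul (hφ.deriv isOpen_ball))).mul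
      (((hφ.const_mul γ).sub (hψ.const_mul (α : ℂ))).cexp)
  set Cp : ℝ := 2 + 2 * ‖p 0‖ with hCp
  have hCp0 : 0 < Cp := by positivity
  have hpb : ∀ w ∈ ball (0 : ℂ) 1, ‖p w‖ ≤ Cp / (1 - ‖w‖) :=
    fun w hw => harnack_norm_le hpd hbaz hw
  set E : ℂ → ℂ := fun w => Complex.exp (γ * φ w) with hE
  have hEc : ContinuousOn E (ball 0 1) := (hφ.continuousOn.const_mul γ).cexp
  have hsub : closedBall (0 : ℂ) (1 / 2) ⊆ ball (0 : ℂ) 1 :=
    closedBall_subset_ball (by norm_num)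
  obtain ⟨M₀, hM₀⟩ := (isCompact_closedBall (0 : ℂ) (1 / 2)).exists_bound_of_continuousOn
    (hEc.mono hsub)
  have hM₀0 : 0 ≤ M₀ := (norm_nonneg _).trans (hM₀ 0 (by simp))
  set K : ℝ := M₀ * Real.exp (2 * α) / Real.exp (α * (ψ 0).re) +
    2 * ‖γ‖ * Cp * Real.exp (2 * α) / ε with hK
  have hγn : 0 < ‖γ‖ := norm_pos_iff.mpr hγ0
  have hK0 : 0 < K := by
    have h1 : 0 ≤ M₀ * Real.exp (2 * α) / Real.exp (α * (ψ 0).re) := by positivity
    have h2 : 0 < 2 * ‖γ‖ * Cp * Real.exp (2 * α) / ε := by positivity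
    linarith
  refine ⟨K, hK0, ?_⟩
  intro z hz
  have hz1 : ‖z‖ < 1 := by simpa using hz
  have hz0 : 0 ≤ ‖z‖ := norm_nonneg z
  have h1r : 0 < 1 - ‖z‖ := by linarith
  set X : ℝ := (1 - ‖z‖) ^ (-ε) with hX
  have hX1 : 1 ≤ X :=
    Real.one_le_rpow_of_pos_of_le_one_of_nonpos h1r (by linarith) (by linarith)
  set F : ℝ → ℂ := fun s =>
    (γ * (s : ℂ) ^ (γ - 1)) * (p ((s : ℂ) * z) * Complex.exp (α * ψ ((s : ℂ) * z))) with hF
  set h : ℝ → ℂ := fun s => (s : ℂ) ^ γ * E ((s : ℂ) * z) with hh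
  have hIcc : Icc (1 / 2 : ℝ) 1 ⊆ Icc (0 : ℝ) 1 := Icc_subset_Icc (by norm_num) le_rfl
  have hderiv : ∀ s ∈ Ioo (1 / 2 : ℝ) 1, HasDerivAt h (F s) s := by
    intro s hs
    have hs0 : 0 < s := by linarith [hs.1]
    have hA : HasDerivAt (fun s : ℝ => (s : ℂ) ^ γ) (γ * (s : ℂ) ^ (γ - 1)) s :=
      hasDerivAt_ofReal_cpow_const hs0.ne' hγ0
    have hB0 := hasDerivAt_radial hφ (smul_mem_ball hz hs0.le hs.2.le)
    have hB1 := (hB0.const_mul γ).cexp
    have hB := hB1.comp_ofReal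
    have hmul : HasDerivAt h _ s := hA.mul hB
    refine hmul.congr_deriv ?_
    have e1 : Complex.exp (γ * φ ((s : ℂ) * z) - α * ψ ((s : ℂ) * z)) *
        Complex.exp (α * ψ ((s : ℂ) * z)) = Complex.exp (γ * φ ((s : ℂ) * z)) := by
      rw [← Complex.exp_add]
      congr 1
      ring
    have hsne : (s : ℂ) ≠ 0 := by
      exact_mod_cast hs0.ne'
    have e2 : (s : ℂ) ^ γ = (s : ℂ) ^ (γ - 1) * s := by
      rw [Complex.cpow_sub _ _ hsne, Complex.cpow_one]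
      field_simp
    show _ = (γ * (s : ℂ) ^ (γ - 1)) * (((1 + (s : ℂ) * z * deriv φ ((s : ℂ) * z)) *
      Complex.exp (γ * φ ((s : ℂ) * z) - α * ψ ((s : ℂ) * z))) *
      Complex.exp (α * ψ ((s : ℂ) * z)))
    rw [mul_assoc (1 + (s : ℂ) * z * deriv φ ((s : ℂ) * z)), e1, e2]
    ring
  have hcont : ContinuousOn h (Icc (1 / 2) 1) := by
    apply ContinuousOn.mul
    · exact (Complex.continuous_ofReal_cpow_const (by rw [hγre]; exact hα)).continuousOn
    · exact (continuousOn_radial hEc hz).mono hIcc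
  have hFcont : ContinuousOn F (Icc (1 / 2) 1) := by
    apply ContinuousOn.mul
    · apply ContinuousOn.mul continuousOn_const
      intro s hs
      have hs0 : s ≠ 0 := by
        have := hs.1
        intro h0
        rw [h0] at this
        norm_num at this
      exact (Complex.continuousAt_ofReal_cpow_const s (γ - 1) (Or.inr hs0)).continuousWithinAt
    · exact ((continuousOn_radial hpd.continuousOn hz).mul
        (continuousOn_radial (hψ.continuousOn.const_mul (α : ℂ)).cexp hz)).mono hIcc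
  have hle12 : (1 / 2 : ℝ) ≤ 1 := by norm_num
  have hFint : IntervalIntegrable F volume (1 / 2) 1 := by
    apply ContinuousOn.intervalIntegrable
    rwa [uIcc_of_le hle12]
  have hFTC : ∫ s in (1 / 2 : ℝ)..1, F s = h 1 - h (1 / 2) :=
    intervalIntegral.integral_eq_sub_of_hasDerivAt_of_le hle12 hcont hderiv hFint
  have hh1 : h 1 = E z := by simp [hh]
  have hnormE : ‖E z‖ = Real.exp ((γ * φ z).re) := by
    simp only [hE, Complex.norm_exp]
  have hG0 : Real.exp (α * (ψ 0).re) ≤ Real.exp (2 * α) * Real.exp (α * (ψ z).re) := by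
    rw [← Real.exp_add]
    apply Real.exp_le_exp.mpr
    have := re_radial_le hψ hstar hz (le_refl (0 : ℝ)) zero_le_one
    simp only [Complex.ofReal_zero, zero_mul] at this
    nlinarith
  have hhalf : ‖h (1 / 2)‖ ≤
      M₀ * Real.exp (2 * α) / Real.exp (α * (ψ 0).re) * Real.exp (α * (ψ z).re) * X := by
    have hmem : ((1 / 2 : ℝ) : ℂ) * z ∈ closedBall (0 : ℂ) (1 / 2) := by
      rw [mem_closedBall, dist_zero_right, norm_mul, Complex.norm_real]
      have : ‖(1 / 2 : ℝ)‖ = 1 / 2 := by norm_num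
      rw [this]
      nlinarith
    have h1 : ‖((1 / 2 : ℝ) : ℂ) ^ γ‖ ≤ 1 := by
      rw [Complex.norm_cpow_eq_rpow_re_of_pos (by norm_num), hγre]
      exact Real.rpow_le_one (by norm_num) (by norm_num) hα.le
    have h2 : ‖E (((1 / 2 : ℝ) : ℂ) * z)‖ ≤ M₀ := hM₀ _ hmem
    have h3 : ‖h (1 / 2)‖ ≤ M₀ := by
      simp only [hh, norm_mul]
      calc ‖((1 / 2 : ℝ) : ℂ) ^ γ‖ * ‖E (((1 / 2 : ℝ) : ℂ) * z)‖ ≤ 1 * M₀ :=
            mul_le_mul h1 h2 (norm_nonneg _) zero_le_one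
        _ = M₀ := one_mul _
    have hpos := Real.exp_pos (α * (ψ 0).re)
    have h4 : M₀ ≤ M₀ * Real.exp (2 * α) / Real.exp (α * (ψ 0).re) * Real.exp (α * (ψ z).re) := by
      rw [div_mul_eq_mul_div, le_div_iff₀ hpos]
      nlinarith
    have h5 : 0 ≤ M₀ * Real.exp (2 * α) / Real.exp (α * (ψ 0).re) * Real.exp (α * (ψ z).re) := by
      positivity
    nlinarith
  set B0 : ℝ := 2 * ‖γ‖ * Cp * Real.exp (2 * α) * Real.exp (α * (ψ z).re) * X with hB0
  have hbound : ∀ s ∈ Ioo (1 / 2 : ℝ) 1, ‖F s‖ ≤ B0 * (1 - s) ^ (ε - 1) := by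
    intro s hs
    have hs0 : 0 < s := by linarith [hs.1]
    have hmem := smul_mem_ball hz hs0.le hs.2.le
    have hns : ‖(s : ℂ) * z‖ = s * ‖z‖ := by simp [abs_of_pos hs0]
    have h1 : ‖γ * (s : ℂ) ^ (γ - 1)‖ ≤ ‖γ‖ * 2 := by
      rw [norm_mul, Complex.norm_cpow_eq_rpow_re_of_pos hs0]
      apply mul_le_mul_of_nonneg_left _ (norm_nonneg _)
      have : (γ - 1).re = α - 1 := by simp [hγ]
      rw [this]
      exact rpow_sub_one_le_two hs.1.le hs.2.le hα
    have h2 : ‖p ((s : ℂ) * z)‖ ≤ Cp * (X * (1 - s) ^ (ε - 1)) := by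
      have h21 := hpb _ hmem
      rw [hns] at h21
      have h22 := inv_one_sub_mul_le hs0 hs.2 hz0 hz1 hε0 hε1
      calc ‖p ((s : ℂ) * z)‖ ≤ Cp / (1 - s * ‖z‖) := h21
        _ = Cp * (1 / (1 - s * ‖z‖)) := by ring
        _ ≤ Cp * (X * (1 - s) ^ (ε - 1)) :=
            mul_le_mul_of_nonneg_left h22 hCp0.le
    have h3 : ‖Complex.exp (α * ψ ((s : ℂ) * z))‖ ≤
        Real.exp (2 * α) * Real.exp (α * (ψ z).re) := by
      rw [Complex.norm_exp, Complex.re_ofReal_mul, ← Real.exp_add]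
      apply Real.exp_le_exp.mpr
      have := re_radial_le hψ hstar hz hs0.le hs.2.le
      nlinarith
    have h4 : 0 ≤ X * (1 - s) ^ (ε - 1) :=
      mul_nonneg (by linarith) (Real.rpow_nonneg (by linarith [hs.2]) _)
    simp only [hF]
    rw [norm_mul, norm_mul (p _)]
    calc ‖γ * (s : ℂ) ^ (γ - 1)‖ * (‖p ((s : ℂ) * z)‖ * ‖Complex.exp (α * ψ ((s : ℂ) * z))‖)
        ≤ (‖γ‖ * 2) * ((Cp * (X * (1 - s) ^ (ε - 1))) *
            (Real.exp (2 * α) * Real.exp (α * (ψ z).re))) := by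
          apply mul_le_mul h1 _ (by positivity) (by positivity)
          apply mul_le_mul h2 h3 (norm_nonneg _)
          exact mul_nonneg hCp0.le h4
      _ = B0 * (1 - s) ^ (ε - 1) := by rw [hB0]; ring
  have hB0nn : 0 ≤ B0 := by
    have : 0 ≤ X := by linarith
    positivity
  have hnorm_int : IntervalIntegrable (fun s => ‖F s‖) volume (1 / 2) 1 := hFint.norm
  have hBint : IntervalIntegrable (fun s : ℝ => B0 * (1 - s) ^ (ε - 1)) volume (1 / 2) 1 := by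
    apply IntervalIntegrable.const_mul
    apply (intervalIntegrable_one_sub_rpow hε0).mono_set
    rw [uIcc_of_le hle12, uIcc_of_le zero_le_one]
    exact hIcc
  have hle : ‖∫ s in (1 / 2 : ℝ)..1, F s‖ ≤ B0 * (1 / ε) := by
    calc ‖∫ s in (1 / 2 : ℝ)..1, F s‖ ≤ ∫ s in (1 / 2 : ℝ)..1, ‖F s‖ :=
          intervalIntegral.norm_integral_le_integral_norm hle12
      _ ≤ ∫ s in (1 / 2 : ℝ)..1, B0 * (1 - s) ^ (ε - 1) :=
          intervalIntegral.integral_mono_on_of_le_Ioo hle12 hnorm_int hBint hbound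
      _ = B0 * ∫ s in (1 / 2 : ℝ)..1, (1 - s) ^ (ε - 1) :=
          intervalIntegral.integral_const_mul _ _
      _ ≤ B0 * (1 / ε) :=
          mul_le_mul_of_nonneg_left (integral_half_one_sub_rpow_le hε0) hB0nn
  rw [hFTC, hh1] at hle
  have hfin : ‖E z‖ ≤ ‖h (1 / 2)‖ + B0 * (1 / ε) := by
    have := norm_sub_norm_le (E z) (h (1 / 2))
    linarith
  rw [hnormE] at hfin
  calc Real.exp ((γ * φ z).re) ≤ ‖h (1 / 2)‖ + B0 * (1 / ε) := hfin
    _ ≤ M₀ * Real.exp (2 * α) / Real.exp (α * (ψ 0).re) * Real.exp (α * (ψ z).re) * X +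
        B0 * (1 / ε) := by linarith
    _ = K * Real.exp (α * (ψ z).re) * X := by
        rw [hK, hB0]; ring

/-- Integrability of negative powers of `‖f'‖` over the unit disc for general Bazilevic
functions `f = z exp φ` of type `(α, β)`, `α > 0`, under the growth condition
`inf |f z / z| > 0`. -/
theorem bazilevic_general_integrable {α β : ℝ} (hα : 0 < α) {φ ψ : ℂ → ℂ}
    (hφ : DifferentiableOn ℂ φ (ball 0 1)) (hψ : DifferentiableOn ℂ ψ (ball 0 1))
    (hstar : ∀ z ∈ ball (0 : ℂ) 1, 0 < (1 + z * deriv ψ z).re)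
    (hbaz : ∀ z ∈ ball (0 : ℂ) 1,
      0 < ((1 + z * deriv φ z) * Complex.exp (((α : ℂ) + β * I) * φ z - α * ψ z)).re)
    {c : ℝ} (hc : 0 < c) (hgrow : ∀ z ∈ ball (0 : ℂ) 1, c ≤ ‖Complex.exp (φ z)‖)
    {t : ℝ} (ht : -2 < t) (ht0 : t ≤ 0) :
    IntegrableOn (fun z => ‖deriv (fun w => w * Complex.exp (φ w)) z‖ ^ t)
      (ball (0 : ℂ) 1) volume := by
  set γ : ℂ := (α : ℂ) + β * I with hγ
  set f : ℂ → ℂ := fun w => w * Complex.exp (φ w) with hf
  set p : ℂ → ℂ := fun w => (1 + w * deriv φ w) * Complex.exp (γ * φ w - α * ψ w) with hp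
  have hpd : DifferentiableOn ℂ p (ball 0 1) :=
    ((differentiableOn_const 1).add (differentiableOn_id.mul (hφ.deriv isOpen_ball))).mul
      (((hφ.const_mul γ).sub (hψ.const_mul (α : ℂ))).cexp)
  have hpne : ∀ z ∈ ball (0 : ℂ) 1, p z ≠ 0 := by
    intro z hz h
    have := hbaz z hz
    rw [show (1 + z * deriv φ z) * Complex.exp (γ * φ z - α * ψ z) = p z from rfl, h] at this
    simp at this
  have hfd : DifferentiableOn ℂ f (ball 0 1) := differentiableOn_id.mul hφ.cexp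
  have hderiv : ∀ z ∈ ball (0 : ℂ) 1,
      deriv f z = Complex.exp (φ z) * (1 + z * deriv φ z) := by
    intro z hz
    have h1 : HasDerivAt φ (deriv φ z) z :=
      (hφ.differentiableAt (isOpen_ball.mem_nhds hz)).hasDerivAt
    have h2 := (hasDerivAt_id z).mul h1.cexp
    have h3 : HasDerivAt f (1 * Complex.exp (φ z) + z * (Complex.exp (φ z) * deriv φ z)) z := h2
    rw [h3.deriv]
    ring
  set q : ℝ := -t with hq
  have hq0 : 0 ≤ q := by rw [hq]; linarith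
  have hq2 : q < 2 := by rw [hq]; linarith
  set ε : ℝ := (1 - q / 2) / 4 with hε
  have hε0 : 0 < ε := by rw [hε]; linarith
  have hε1 : ε ≤ 1 := by rw [hε]; linarith
  have hη : ε * q + q / 2 < 1 := by rw [hε]; nlinarith
  obtain ⟨K, hK, hKb⟩ := exp_re_le_general (β := β) hα hφ hψ hstar hbaz hε0 hε1
  set K₁ : ℝ := K / c with hK₁
  have hK₁0 : 0 < K₁ := by positivity
  set 𝔭 : ℂ → ℂ := fun z => (p z)⁻¹ with h𝔭
  have h𝔭d : DifferentiableOn ℂ 𝔭 (ball 0 1) := hpd.inv hpne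
  have h𝔭re : ∀ z ∈ ball (0 : ℂ) 1, 0 < (𝔭 z).re := by
    intro z hz
    simp only [h𝔭, Complex.inv_re]
    exact div_pos (hbaz z hz) (Complex.normSq_pos.mpr (hpne z hz))
  have hne1 : ∀ z ∈ ball (0 : ℂ) 1, 1 + z * deriv φ z ≠ 0 := by
    intro z hz h
    apply hpne z hz
    simp [hp, h]
  have hF0 : ∀ z ∈ ball (0 : ℂ) 1, deriv f z ≠ 0 := by
    intro z hz
    rw [hderiv z hz]
    exact mul_ne_zero (Complex.exp_ne_zero _) (hne1 z hz)
  have hbound : ∀ z ∈ ball (0 : ℂ) 1,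
      ‖deriv f z‖⁻¹ ≤ K₁ * (1 - ‖z‖) ^ (-ε) * ‖𝔭 z‖ := by
    intro z hz
    have hz1 : ‖z‖ < 1 := by simpa using hz
    have h1r : 0 < 1 - ‖z‖ := by linarith
    set X : ℝ := (1 - ‖z‖) ^ (-ε) with hX
    have hX0 : 0 ≤ X := Real.rpow_nonneg h1r.le _
    have hKz := hKb z hz
    have hgz := hgrow z hz
    rw [Complex.norm_exp] at hgz
    have hnp : ‖p z‖ = ‖1 + z * deriv φ z‖ * Real.exp ((γ * φ z).re - α * (ψ z).re) := by
      simp only [hp, norm_mul, Complex.norm_exp]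
      congr 2
      rw [Complex.sub_re, Complex.re_ofReal_mul]
    have hnf : ‖deriv f z‖ = Real.exp (φ z).re * ‖1 + z * deriv φ z‖ := by
      rw [hderiv z hz, norm_mul, Complex.norm_exp]
    have hn1 : 0 < ‖1 + z * deriv φ z‖ := norm_pos_iff.mpr (hne1 z hz)
    have heq : ‖deriv f z‖⁻¹ =
        Real.exp ((γ * φ z).re - α * (ψ z).re) * (Real.exp (φ z).re)⁻¹ * ‖𝔭 z‖ := by
      simp only [h𝔭, norm_inv]
      rw [hnf, hnp]
      have h1 := Real.exp_pos (φ z).re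
      have h2 := Real.exp_pos ((γ * φ z).re - α * (ψ z).re)
      field_simp
    have hA : Real.exp ((γ * φ z).re - α * (ψ z).re) ≤ K * X := by
      rw [Real.exp_sub, div_le_iff₀ (Real.exp_pos _)]
      linarith
    have hB : (Real.exp (φ z).re)⁻¹ ≤ c⁻¹ := inv_anti₀ hc hgz
    rw [heq]
    apply mul_le_mul_of_nonneg_right _ (norm_nonneg _)
    calc Real.exp ((γ * φ z).re - α * (ψ z).re) * (Real.exp (φ z).re)⁻¹
        ≤ (K * X) * c⁻¹ :=
          mul_le_mul hA hB (inv_nonneg.mpr (Real.exp_nonneg _)) (by positivity)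
      _ = K₁ * X := by rw [hK₁]; ring
  have hmain := integrableOn_rpow_of_bound (hfd.deriv isOpen_ball).continuousOn hF0 h𝔭d h𝔭re
    hK₁0 hq0 hq2 hη hbound
  have e : -q = t := by rw [hq]; ring
  rw [e] at hmain
  exact hmain

end Vale.Agent.Lib.P142
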